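import Vale.Agent.P057T.Br.Defs
import Vale.Agent.P057T.Mt.Emb
import Vale.Agent.P057T.Mt.Tok

/-! Row C3: the tower of increments embeds into the tower of copies. -/

set_option linter.all false

open MvPolynomial Finset

namespace Vale.Agent.P057T.Br

open Vale.Agent.P057T.Mt Vale.Agent.P057T.Gk Vale.Agent.P057T.Cp Vale.Agent.P057T.Mt.EmbP

namespace C3P

variable {ι Γ κ : Type} [Fintype ι] [DecidableEq ι] [Fintype Γ] [DecidableEq Γ] [Fintype κ]
  [DecidableEq κ] {M : MT ι Γ} {T : TT Γ ι} {i : Γ}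

/-- the choice of the copy `k` of the colour `i` -/
def fk (i : Γ) (k : κ) : Γ → Option κ := fun c => if c = i then some k else none

theorem rs_none {e : Finset Γ} {f : Γ → Option κ} {c : Γ} (h : f c = none) : rs e f c = none := by
  unfold rs
  split_ifs
  · exact h
  · rfl

theorem at_l (a : ι) (c : Γ) : (cj M T i κ (Sum.inl a)).1.2 c = none :=
  rs_none (e := M.col a) (f := fun _ => none) rfl

theorem at_r (hR : Rep M T) (p : κ × {v : ι // i ∈ T.ty v}) :
    (cj M T i κ (Sum.inr p)).1.2 i = some p.1 := by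
  show rs (M.col p.2.1) (fk i p.1) i = _
  rw [rs, if_pos (hR.ty _ ▸ p.2.2), fk, if_pos rfl]

theorem inj (hR : Rep M T) : Function.Injective (cj M T i κ) := by
  rintro (a | p) (b | q) h
  · exact congrArg Sum.inl (congrArg (fun x : CV M.col (Option κ) => x.1.1) h)
  · have := congrArg (fun x : CV M.col (Option κ) => x.1.2 i) h
    simp only [at_l, at_r hR] at this
    exact absurd this (by simp)
  · have := congrArg (fun x : CV M.col (Option κ) => x.1.2 i) h
    simp only [at_l, at_r hR] at this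
    exact absurd this (by simp)
  · have := congrArg (fun x : CV M.col (Option κ) => x.1.2 i) h
    simp only [at_r hR] at this
    exact congrArg Sum.inr (Prod.ext (Option.some.inj this)
      (Subtype.ext (congrArg (fun x : CV M.col (Option κ) => x.1.1) h)))

theorem injγ : Function.Injective (cγ i κ) := by
  rintro (a | p) (b | q) h
  · exact congrArg Sum.inl (congrArg Prod.fst h)
  · exact absurd (congrArg Prod.snd h) (by simp [cγ])
  · exact absurd (congrArg Prod.snd h) (by simp [cγ])
  · exact congrArg Sum.inr (Option.some.inj (congrArg Prod.snd h))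

theorem col_eq (hR : Rep M T) (x : T.CV i κ) :
    (M.cpy (Option κ)).col (cj M T i κ x) = ((T.cpy i κ).ty x).image (cγ i κ) := by
  rcases x with a | p
  · refine (col_vx M (fun _ => none) a).trans (Finset.ext fun y => ?_)
    show _ ↔ y ∈ ((T.ty a).disjSum (∅ : Finset κ)).image (cγ i κ)
    rw [mem_image, mem_image, hR.ty]
    refine ⟨fun ⟨c, h1, h2⟩ => ⟨Sum.inl c, inl_mem_disjSum.2 h1, h2⟩, ?_⟩
    rintro ⟨c | k, h1, h2⟩
    · exact ⟨c, inl_mem_disjSum.1 h1, h2⟩
    · exact absurd (inr_mem_disjSum.1 h1) (notMem_empty k)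
  · refine (col_vx M (fk i p.1) p.2.1).trans (Finset.ext fun y => ?_)
    show _ ↔ y ∈ (((T.ty p.2.1).erase i).disjSum {p.1}).image (cγ i κ)
    rw [mem_image, mem_image, ← hR.ty]
    constructor
    · rintro ⟨c, h1, rfl⟩
      by_cases hc : c = i
      · exact ⟨Sum.inr p.1, inr_mem_disjSum.2 (mem_singleton_self _), by
          rw [hc, fk, if_pos rfl]; rfl⟩
      · exact ⟨Sum.inl c, inl_mem_disjSum.2 (mem_erase.2 ⟨hc, h1⟩), by rw [fk, if_neg hc]; rfl⟩
    · rintro ⟨c | k, h1, rfl⟩
      · obtain ⟨h2, h3⟩ := mem_erase.1 (inl_mem_disjSum.1 h1)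
        exact ⟨c, h3, by rw [fk, if_neg h2]; rfl⟩
      · obtain rfl := mem_singleton.1 (inr_mem_disjSum.1 h1)
        exact ⟨i, p.2.2, by rw [fk, if_pos rfl]; rfl⟩

theorem bm_eq (hR : Rep M T) {A : Matrix ι ι ℝ} (h : ∀ a b, A a b ≠ 0 → M.col a = M.col b)
    (x y : T.CV i κ) : bm T i κ A x y = cm M.col (Option κ) A (cj M T i κ x) (cj M T i κ y) := by
  rcases x with a | p <;> rcases y with b | q
  · exact cm_vx (fun _ => none) (h a b)
  · refine (if_neg fun e => ?_).symm
    have := congrFun e i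
    rw [at_l, at_r hR] at this
    exact absurd this (by simp)
  · refine (if_neg fun e => ?_).symm
    have := congrFun e i
    rw [at_l, at_r hR] at this
    exact absurd this (by simp)
  · show (if p.1 = q.1 then A p.2.1 q.2.1 else 0) = _
    by_cases e : p.1 = q.1
    · rw [if_pos e]
      show _ = cm M.col (Option κ) A (vx M.col (fk i p.1) p.2.1) (vx M.col (fk i q.1) q.2.1)
      rw [e]
      exact cm_vx _ (h _ _)
    · rw [if_neg e]
      refine (if_neg fun e' => e ?_).symm
      have := congrFun e' i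
      rw [at_r hR, at_r hR] at this
      exact Option.some.inj this

theorem mem_im (hR : Rep M T) (x : CV M.col (Option κ)) :
    x ∈ univ.image (cj M T i κ) ↔ ∀ c, c ≠ i → x.1.2 c = none := by
  rw [mem_image]
  constructor
  · rintro ⟨a | p, -, rfl⟩ c hc
    · exact at_l a c
    · exact rs_none (f := fk i p.1) (if_neg hc)
  · intro h
    have key : ∀ f : Γ → Option κ, (∀ c, f c = x.1.2 c) → vx M.col f x.1.1 = x := fun f hf => by
      rw [funext hf]
      exact Subtype.ext (Prod.ext rfl x.2)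
    rcases e : x.1.2 i with _ | k
    · refine ⟨Sum.inl x.1.1, mem_univ _, key _ fun c => ?_⟩
      by_cases hc : c = i
      · rw [hc, e]
      · rw [h c hc]
    · have hi : i ∈ T.ty x.1.1 := by
        by_contra hn
        have := congrFun x.2 i
        rw [rs, if_neg (hR.ty _ ▸ hn), e] at this
        exact absurd this (by simp)
      refine ⟨Sum.inr (k, ⟨x.1.1, hi⟩), mem_univ _, key (fk i k) fun c => ?_⟩
      by_cases hc : c = i
      · rw [hc, e, fk, if_pos rfl]
      · rw [h c hc, fk, if_neg hc]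

theorem cj_rn (hR : Rep M T) (k : κ) : cj M T i κ ∘ rn T i κ k = vx M.col (fk i k) := by
  funext b
  rw [Function.comp_apply, rn]
  split_ifs with h
  · rfl
  · refine Subtype.ext (Prod.ext rfl (funext fun c => ?_))
    show rs (M.col b) (fun _ => none) c = rs (M.col b) (fk i k) c
    by_cases hc : c = i
    · rw [rs, rs, hc, if_neg (hR.ty _ ▸ h), if_neg (hR.ty _ ▸ h)]
    · rw [rs_none rfl, rs_none (f := fk i k) (if_neg hc)]

theorem kp_cj (hR : Rep M T) (D : Finset (Γ ⊕ κ)) (F : MvPolynomial (T.CV i κ) ℝ) :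
    rename (cj M T i κ) (kp (T.cpy i κ).ty D F) =
      kp (M.cpy (Option κ)).col (D.image (cγ i κ)) (rename (cj M T i κ) F) := by
  have d : ∀ c m, dg (M.cpy (Option κ)).col (cγ i κ c) (Finsupp.mapDomain (cj M T i κ) m) =
      dg (T.cpy i κ).ty c m := fun c m => dg_map (fun b => by
    rw [col_eq hR]
    exact injγ.mem_finset_image) m
  refine kp_rename (inj hR) (fun m => ?_) _
  rw [Finset.forall_mem_image]
  exact ⟨fun h c hc => d c m ▸ h hc, fun h c hc => (d c m).symm ▸ h c hc⟩

theorem ren_rs {K : Type} [Fintype K] [DecidableEq K] [Inhabited K] (hM : M.Ok) (f : Γ → K)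
    {a : ι} (ha : a ∈ M.U) :
    rename (vx M.col (rs (M.col a) f)) (M.p a) = rename (vx M.col f) (M.p a) := by
  refine hom_congr_vars (f₁ := (rename (vx M.col (rs (M.col a) f))).toRingHom)
    (f₂ := (rename (vx M.col f)).toRingHom) (RingHom.ext fun r => ?_) (fun b hb _ => ?_) rfl
  · exact (rename_C _ r).trans (rename_C _ r).symm
  · exact (rename_X _ b).trans ((congrArg X (vx_rs _ _ (Tok.colT hM a ha b hb))).trans
      (rename_X _ b).symm)

theorem kp_one {K : Type} [Fintype K] [DecidableEq K] [Inhabited K] (f : Γ → K) (c : Γ)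
    (F : MvPolynomial ι ℝ) : rename (vx M.col f) (kp M.col {c} F) =
      kp (M.cpy K).col {(c, f c)} (rename (vx M.col f) F) := by
  refine kp_rename (vx_inj _ f) (fun m => ?_) _
  simp only [mem_singleton, forall_eq]
  rw [dg_map (col' := M.col) (c' := c) (fun b => by
    rw [col_vx, mem_image]
    refine ⟨fun ⟨c', h1, h2⟩ => ?_, fun h => ⟨c, h, rfl⟩⟩
    obtain rfl : c' = c := congrArg Prod.fst h2
    exact h1) m]

end C3P

open C3P in
theorem c3 : C3 := by
  intro ι Γ κ _ _ _ _ _ _ M T i hM hR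
  have hU : ∀ a, a ∈ M.U := fun a => hR.U ▸ mem_univ a
  refine ⟨(inj hR).injOn, injγ, fun x _ => mem_filter.2 ⟨mem_univ _, hU _⟩,
    fun x _ => col_eq hR x, fun x _ y _ => ⟨bm_eq hR (fun a b h => (hM.blk a b (Or.inl h)).2) x y,
      bm_eq hR (fun a b h => (hM.blk a b (Or.inr h)).2) x y⟩, fun x y h => ?_, fun x _ => ?_,
    fun x _ => ?_⟩
  · have h1 : x.1.2 = y.1.2 := h.elim (fun h => (cm_ne h).1) fun h => (cm_ne h).1
    show x ∈ univ.image (cj M T i κ) ↔ y ∈ univ.image (cj M T i κ)
    rw [mem_im hR, mem_im hR, h1]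
  · show rename (cj M T i κ) (kp (T.cpy i κ).ty (univ ∩ (T.cpy i κ).ty x) ((cp1 M T i κ).p x)) =
      kp (M.cpy (Option κ)).col (univ ∩ (M.cpy (Option κ)).col (cj M T i κ x))
        ((M.cpy (Option κ)).p (cj M T i κ x))
    rw [univ_inter, univ_inter, kp_cj hR, ← col_eq hR]
    rcases x with a | p
    · refine congrArg _ ?_
      show rename (cj M T i κ) (rename Sum.inl (M.p a)) =
        rename (vx M.col (rs (M.col a) fun _ => none)) (M.p a)
      rw [ren_rs hM _ (hU a), rename_rename]
      rfl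
    · show kp _ _ (rename (cj M T i κ) (rename (rn T i κ p.1) (kp M.col {i} (M.p p.2.1)))) =
        kp _ _ (rename (vx M.col (rs (M.col p.2.1) (fk i p.1))) (M.p p.2.1))
      rw [ren_rs hM _ (hU _), rename_rename, cj_rn hR, kp_one]
      refine kp_kp _ (singleton_subset_iff.2 ?_) _
      rw [show cj M T i κ (Sum.inr p) = vx M.col (fk i p.1) p.2.1 from rfl, col_vx]
      exact mem_image_of_mem _ (hR.ty _ ▸ p.2.2)
  · rcases x with a | p <;> exact (one_mul _).ge

end Vale.Agent.P057T.Br
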