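import Vale.Agent.P057T.Mt.Seq
import Vale.Agent.P057T.Gk.Rows

/-! Bridge from multi-affine towers (`Mt`) to towers with sharp boxes (`Gk`). -/

set_option linter.all false

open MvPolynomial Finset
open scoped Real

namespace Vale.Agent.P057T.Br

open Vale.Agent.P057T.Mt Vale.Agent.P057T.Gk Vale.Agent.P057T.Cp

noncomputable section

variable {ι Γ : Type} [Fintype ι] [DecidableEq ι] [Fintype Γ] [DecidableEq Γ]

/-- `T` is the tower `M` -/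
structure Rep (M : MT ι Γ) (T : TT Γ ι) : Prop where
  U : M.U = univ
  ty : ∀ v, T.ty v = M.col v
  u : ∀ z v, T.u z v = eval z (M.sc v)
  dv : ∀ e : Finset Γ, ∏ v ∈ univ.filter (fun v => M.col v = e), T.dv v =
    M.G.mn M.sg (univ.filter fun v => M.col v = e)

/-- integer points of the fibre of `S` over `b` -/
def FP (T : TT Γ ι) (S0 S : Finset Γ) (b : ι → ℤ) : Type :=
  {z : ι → ℤ // (∀ v, ¬ T.ty v ⊆ S → z v = 0) ∧ T.Ag S0 z b}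

/-- Gaussian weight of the window with centre `s` and inverse width `l` -/
def gw (T : TT Γ ι) (S0 S : Finset Γ) (s : ι → ℝ) (l : ℝ) (z : ι → ℤ) : ℝ :=
  Real.exp (-π * ∑ v ∈ T.fv S0 S, (l * (T.u (Gk.cz z) v - s v)) ^ 2)

/-- normalised Gaussian sum -/
def gm (T : TT Γ ι) (S0 S : Finset Γ) (b : ι → ℤ) (s : ι → ℝ) (l : ℝ) (h : (ι → ℤ) → ℝ) : ℝ :=
  (∏ v ∈ T.fv S0 S, l / T.dv v) * ∑' z : FP T S0 S b, gw T S0 S s l z.1 * h z.1

/-- all windows have the expected mass -/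
def GW (T : TT Γ ι) (S0 S : Finset Γ) (b : ι → ℤ) (Λ δ : ℝ) : Prop :=
  ∀ (s : ι → ℝ) (l : ℝ), 1 ≤ l → l ≤ Λ →
    Summable (fun z : FP T S0 S b => gw T S0 S s l z.1) ∧ |gm T S0 S b s l (fun _ => 1) - 1| ≤ δ

/-- window of a multi-affine tower, centre in scaled units -/
def wn (M : MT ι Γ) (s : ι → ℝ) (l : ℝ) : MT ι Γ := (M.cen fun v => s v / M.sg v).wid fun _ => l

/-- the marginal tower -/
def mg (M : MT ι Γ) (S : Finset Γ) : MT ι Γ := M.rs (univ.filter fun v => M.col v ⊆ S)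

section
variable (M : MT ι Γ) (T : TT Γ ι) (i : Γ) (κ : Type) [Fintype κ] [DecidableEq κ]

def rn (k : κ) (b : ι) : T.CV i κ :=
  if h : i ∈ T.ty b then Sum.inr (k, ⟨b, h⟩) else Sum.inl b

def bm (A : Matrix ι ι ℝ) : Matrix (T.CV i κ) (T.CV i κ) ℝ := fun x y =>
  match x, y with
  | Sum.inl a, Sum.inl b => A a b
  | Sum.inr p, Sum.inr q => if p.1 = q.1 then A p.2.1 q.2.1 else 0
  | _, _ => 0

/-- increments of the class `i` -/
def cp1 : MT (T.CV i κ) (Γ ⊕ κ) where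
  w := Sum.elim M.w fun p => M.w p.2.1
  col := (T.cpy i κ).ty
  A := bm T i κ M.A
  B := bm T i κ M.B
  p := Sum.elim (fun a => rename Sum.inl (M.p a))
    fun p => rename (rn T i κ p.1) (kp M.col {i} (M.p p.2.1))
  U := univ
  sg := Sum.elim M.sg fun p => M.sg p.2.1

def cj : T.CV i κ → CV M.col (Option κ) :=
  Sum.elim (fun a => vx M.col (fun _ => none) a)
    fun p => vx M.col (fun c => if c = i then some p.1 else none) p.2.1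

def cγ : Γ ⊕ κ → Γ × Option κ := Sum.elim (fun c => (c, none)) fun k => (i, some k)
end

/-! ### Rows -/

/-- Gaussian masses give box counts -/
def BOX : Prop := ∀ (ι Γ : Type) [Fintype ι] [DecidableEq ι] [Fintype Γ] [DecidableEq Γ]
  (T : TT Γ ι) (S0 S : Finset Γ) (b : ι → ℤ) (σ Λ δ : ℝ), T.Ok → S0 ⊆ S → 0 < σ → σ ≤ 1 →
    (100 * (Fintype.card ι + 1) / σ) ^ 4 ≤ Λ → δ ≤ σ / 10 →
    (∀ v, T.ty v ⊆ S0 → |T.u (Gk.cz b) v| ≤ 20) → GW T S0 S b Λ δ → T.Eq S0 S b σ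

/-- small Gaussian share gives small share in boxes -/
def BOXM : Prop := ∀ (ι Γ : Type) [Fintype ι] [DecidableEq ι] [Fintype Γ] [DecidableEq Γ]
  (T : TT Γ ι) (S : Finset Γ) (p : (ι → ℤ) → Prop) (σ Λ δ : ℝ), T.Ok → 0 < σ → σ ≤ 1 →
    (100 * (Fintype.card ι + 1) / σ) ^ 4 ≤ Λ → δ ≤ σ / 10 →
    (∀ s, Summable (fun z : FP T ∅ S 0 => gw T ∅ S s Λ z.1) ∧
      gm T ∅ S 0 s Λ (fun z => ind (¬ p z)) ≤ δ) → T.Mo S σ p

/-- the marginal sums are sums of `Mt` -/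
def MW0 : Prop := ∀ (ι Γ : Type) [Fintype ι] [DecidableEq ι] [Fintype Γ] [DecidableEq Γ]
  (M : MT ι Γ) (T : TT Γ ι) (S : Finset Γ), M.Ok → Rep M T → (mg M S).Ok ∧
    ∀ (s : ι → ℝ) (l : ℝ), 0 < l → Summable (fun z : FP T ∅ S 0 => gw T ∅ S s l z.1) ∧
      ∀ h : (ι → ℤ) → ℝ, gm T ∅ S 0 s l h = (wn (mg M S) s l).En h

/-- the fibre sums are sums of `Mt` -/
def MW1 : Prop := ∀ (ι Γ : Type) [Fintype ι] [DecidableEq ι] [Fintype Γ] [DecidableEq Γ]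
  (M : MT ι Γ) (T : TT Γ ι) (S : Finset Γ) (a : Γ) (b : ι → ℤ) (s : ι → ℝ) (l : ℝ), M.Ok → Rep M T →
    a ∈ S → 0 < l → Summable (fun z : FP T (S.erase a) S b => gw T (S.erase a) S s l z.1) ∧
      gm T (S.erase a) S b s l (fun _ => 1) = (wn ((mg M S).fib {a} b) s l).nm

/-- masses of windows -/
def WM : Prop := ∀ (ι Γ : Type) [Fintype ι] [DecidableEq ι] [Fintype Γ] [DecidableEq Γ]
  (M : MT ι Γ) (S : Finset Γ) (Λ d : ℝ), M.Ok → M.U = univ → (mg M S).Ok → 1 ≤ Λ → M.TH 0 Λ d →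
    0 ≤ d ∧ (∀ s l, 0 < l → l ≤ Λ → |(wn (mg M S) s l).nm - 1| ≤ 2 ^ Fintype.card Γ * d) ∧
    ∀ (a : Γ) (t : ℝ) (s : ι → ℝ), a ∈ S → 0 < t →
      (wn (mg M (S.erase a)) s Λ).En (fun y => ind (¬ ∀ s' l, 0 < l → l ≤ Λ →
        |(wn ((mg M S).fib {a} y) s' l).nm - 1| ≤ 2 ^ Fintype.card Γ * t)) ≤
        (2 ^ Fintype.card Γ + 1) * d / t

def C1 : Prop := ∀ (ι Γ κ : Type) [Fintype ι] [DecidableEq ι] [Fintype Γ] [DecidableEq Γ]
  [Fintype κ] [DecidableEq κ] (M : MT ι Γ) (T : TT Γ ι) (i : Γ), M.Ok → Rep M T →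
    (cp1 M T i κ).Ok

def C2 : Prop := ∀ (ι Γ κ : Type) [Fintype ι] [DecidableEq ι] [Fintype Γ] [DecidableEq Γ]
  [Fintype κ] [DecidableEq κ] (M : MT ι Γ) (T : TT Γ ι) (i : Γ), M.Ok → Rep M T →
    Rep (cp1 M T i κ) (T.cpy i κ)

def C3 : Prop := ∀ (ι Γ κ : Type) [Fintype ι] [DecidableEq ι] [Fintype Γ] [DecidableEq Γ]
  [Fintype κ] [DecidableEq κ] (M : MT ι Γ) (T : TT Γ ι) (i : Γ), M.Ok → Rep M T →
    Emb (cp1 M T i κ) (M.cpy (Option κ)) (cj M T i κ) (cγ i κ) 1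

/-- windows -/
def SCR : Prop := ∀ (ι Γ : Type) [Fintype ι] [DecidableEq ι] [Fintype Γ] [DecidableEq Γ]
  (M : MT ι Γ) (T : TT Γ ι) (l cen : ι → ℝ), M.Ok → Rep M T → (∀ v, 0 < l v) →
    Rep ((M.cen fun v => cen v / M.sg v).wid fun v => (l v)⁻¹) (T.sc l cen)

/-- multi-affine polynomials are forms -/
def FMP : Prop := ∀ (ι Γ : Type) [Fintype ι] [DecidableEq ι] [Fintype Γ] [DecidableEq Γ]
  (T : TT Γ ι) (e : Finset Γ) (F : MvPolynomial ι ℝ), Ty T.ty e F →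
    T.Fm e univ fun z => eval z F

/-- forms are multi-affine polynomials -/
def POLY : Prop := ∀ (ι Γ : Type) [Fintype ι] [DecidableEq ι] [Fintype Γ] [DecidableEq Γ]
  (T : TT Γ ι) (e : Finset Γ) (f : Fn ι), (∀ v, (T.ty v).Nonempty) → T.Fm e e f →
    ∃ F : MvPolynomial ι ℝ, Ty T.ty e F ∧ ∀ z, f z = eval z F

/-- every tower is represented -/
def REPX : Prop := ∀ (ι Γ : Type) [Fintype ι] [DecidableEq ι] [Fintype Γ] [DecidableEq Γ]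
  (M : MT ι Γ), M.Ok → M.U = univ → ∃ T : TT Γ ι, Rep M T ∧ T.Ok

/-- the minimal typicality -/
def GZ : Prop := ∀ (ι Γ : Type) [Fintype ι] [DecidableEq ι] [Fintype Γ] [DecidableEq Γ]
  (M : MT ι Γ) (T : TT Γ ι) (σ Λ d : ℝ), M.Ok → Rep M T → T.Ok → 0 < σ → σ ≤ 1 →
    (100 * (Fintype.card ι + 1) / σ) ^ 4 ≤ Λ → 200 * 4 ^ Fintype.card Γ * d ≤ σ ^ 2 → M.TH 0 Λ d →
    G00 T σ

/-- the bridge -/
def GN : Prop := ∀ r n : ℕ, ∃ k C : ℕ, ∀ (ι Γ : Type) [Fintype ι] [DecidableEq ι] [Fintype Γ]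
  [DecidableEq Γ] (M : MT ι Γ) (T : TT Γ ι) (W Λ d : ℝ), Fintype.card Γ ≤ r → M.Ok → Rep M T →
    T.Ok → 0 ≤ W → ((Fintype.card ι : ℝ) + 1) ^ 4 * Real.exp (C * (W + 1)) ≤ Λ →
    d ≤ Real.exp (-(C * (W + 1))) → M.TH k Λ d → T.Gn n (Real.exp (-W))

end

end Vale.Agent.P057T.Br
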