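import Vale.Agent.P057T.Br.Defs
import Vale.Agent.P057T.Gk.Trf

/-! The bridge for all iterated copies. -/

set_option linter.all false

open MvPolynomial Finset
open scoped Real

namespace Vale.Agent.P057T.Br

open Vale.Agent.P057T.Mt Vale.Agent.P057T.Gk Vale.Agent.P057T.Cp

noncomputable section

namespace GnP

variable {ι Γ : Type} [Fintype ι] [DecidableEq ι] [Fintype Γ] [DecidableEq Γ]

theorem mo_mono {T : TT Γ ι} (hT : T.Ok) {σ τ : ℝ} (h0 : 0 < σ) (h : σ ≤ τ) {S : Finset Γ}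
    {p : (ι → ℤ) → Prop} (hM : T.Mo S σ p) : T.Mo S τ p := fun c r hB =>
  (hM c r (Trf.bx_mono hB h)).trans (mul_le_mul_of_nonneg_right h
    (Trf.VV_pos hT (fun v => (h0.trans_le h).trans_le (hB v).1) ∅ S).le)

theorem g0_mono {T : TT Γ ι} (hT : T.Ok) {σ τ : ℝ} (h0 : 0 < σ) (h : σ ≤ τ) (hG : T.G0 σ) :
    T.G0 τ :=
  ⟨fun S => Trf.eq_mono hT h0 h (hG.1 S), fun S S1 a ha hs =>
    mo_mono hT h0 h (Trf.mo_imp (fun z k => Trf.eq_mono hT h0 h k) (hG.2 S S1 a ha hs))⟩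

theorem le_exp (n : ℕ) : (n : ℝ) ≤ Real.exp n := by
  have := Real.add_one_le_exp (n : ℝ)
  linarith

theorem g0 (hZ : GZ) (hF : TRF) (r : ℕ) : ∃ C : ℕ, ∀ (ι Γ : Type) [Fintype ι] [DecidableEq ι]
    [Fintype Γ] [DecidableEq Γ] (M : MT ι Γ) (T : TT Γ ι) (W Λ d : ℝ), Fintype.card Γ ≤ r → M.Ok →
    Rep M T → T.Ok → 0 ≤ W → ((Fintype.card ι : ℝ) + 1) ^ 4 * Real.exp (C * (W + 1)) ≤ Λ →
    d ≤ Real.exp (-(C * (W + 1))) → M.TH 0 Λ d → T.G0 (Real.exp (-W)) := by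
  obtain ⟨c, hc⟩ := hF r
  refine ⟨4 * c * (c + 1) + 100 ^ 4 + 200 * 4 ^ r, fun ι Γ _ _ _ _ M T W Λ d hr hM hR hT hW hΛ hd hH => ?_⟩
  have c0 : (0 : ℝ) ≤ c := Nat.cast_nonneg c
  have s0 : 0 < Real.exp (-(c * (W + c))) := Real.exp_pos _
  have x0 : (0 : ℝ) ≤ c * (W + c) := by positivity
  have q0 : (0 : ℝ) ≤ ((200 * 4 ^ r : ℕ) : ℝ) := Nat.cast_nonneg _
  have k : 4 * (c * (W + c)) + ((100 ^ 4 : ℕ) : ℝ) + ((200 * 4 ^ r : ℕ) : ℝ) ≤
      ((4 * c * (c + 1) + 100 ^ 4 + 200 * 4 ^ r : ℕ) : ℝ) * (W + 1) := by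
    have e : ((4 * c * (c + 1) + 100 ^ 4 + 200 * 4 ^ r : ℕ) : ℝ) =
        4 * c * (c + 1) + ((100 ^ 4 : ℕ) : ℝ) + ((200 * 4 ^ r : ℕ) : ℝ) := by push_cast; ring
    rw [e]
    have p0 : (0 : ℝ) ≤ ((100 ^ 4 : ℕ) : ℝ) := Nat.cast_nonneg _
    nlinarith [mul_nonneg p0 hW, mul_nonneg q0 hW, mul_nonneg (mul_nonneg c0 c0) hW]
  have hG : G00 T (Real.exp (-(c * (W + c)))) := by
    refine hZ ι Γ M T _ Λ d hM hR hT s0 (Real.exp_le_one_iff.2 (by linarith)) ?_ ?_ hH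
    · refine le_trans ?_ hΛ
      have e : (100 * ((Fintype.card ι : ℝ) + 1) / Real.exp (-(c * (W + c)))) ^ 4 =
          ((Fintype.card ι : ℝ) + 1) ^ 4 * (((100 ^ 4 : ℕ) : ℝ) * Real.exp (4 * (c * (W + c)))) := by
        rw [show (4 : ℝ) * (c * (W + c)) = ((4 : ℕ) : ℝ) * (c * (W + c)) by norm_num,
          Real.exp_nat_mul, Real.exp_neg, div_inv_eq_mul]
        push_cast
        ring
      rw [e]
      refine mul_le_mul_of_nonneg_left ?_ (by positivity)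
      refine (mul_le_mul_of_nonneg_right (le_exp _) (Real.exp_pos _).le).trans ?_
      rw [← Real.exp_add]
      exact Real.exp_le_exp.2 (by linarith)
    · have h4 : (200 : ℝ) * 4 ^ Fintype.card Γ ≤ ((200 * 4 ^ r : ℕ) : ℝ) := by
        push_cast
        exact mul_le_mul_of_nonneg_left (pow_le_pow_right₀ (by norm_num) hr) (by norm_num)
      have p0 : (0 : ℝ) ≤ ((100 ^ 4 : ℕ) : ℝ) := Nat.cast_nonneg _
      refine (mul_le_mul_of_nonneg_left hd (by positivity)).trans ?_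
      refine (mul_le_mul_of_nonneg_right (h4.trans (le_exp _)) (Real.exp_pos _).le).trans ?_
      rw [← Real.exp_add, sq, ← Real.exp_add]
      exact Real.exp_le_exp.2 (by linarith)
  exact g0_mono hT (Real.exp_pos _) (Real.exp_le_exp.2 (by linarith))
    (hc Γ ι T (W + c) hr (by linarith) hT hG).1

theorem card_cv (T : TT Γ ι) (i : Γ) (m : ℕ) (hm : m ≤ 8) :
    (Fintype.card (T.CV i (Fin m)) : ℝ) + 1 ≤ 9 * ((Fintype.card ι : ℝ) + 1) := by
  have h1 : Fintype.card {v : ι // i ∈ T.ty v} ≤ Fintype.card ι := Fintype.card_subtype_le _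
  have h2 : Fintype.card (T.CV i (Fin m)) ≤ 9 * Fintype.card ι := by
    rw [Fintype.card_sum, Fintype.card_prod, Fintype.card_fin]
    nlinarith
  have h3 : (Fintype.card (T.CV i (Fin m)) : ℝ) ≤ 9 * Fintype.card ι := by exact_mod_cast h2
  linarith

end GnP

open GnP in
theorem gn (hZ : GZ) (hF : TRF) (hP : CPOK) (h1 : C1) (h2 : C2) (h3 : C3) (hM : THM) (hS : SUBT) :
    GN := by
  intro r n
  induction n generalizing r with
  | zero =>
    obtain ⟨C, hC⟩ := g0 hZ hF r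
    exact ⟨0, C, hC⟩
  | succ n ih =>
    obtain ⟨C, hC⟩ := g0 hZ hF r
    obtain ⟨k, C', hk⟩ := ih (r + 8)
    refine ⟨9 * k + 8, C + C' + 9 ^ 4, fun ι Γ _ _ _ _ M T W Λ d hr hO hR hT hW hΛ hd hH => ?_⟩
    have c0 : (0 : ℝ) ≤ C := Nat.cast_nonneg C
    have c1 : (0 : ℝ) ≤ C' := Nat.cast_nonneg C'
    have p0 : (0 : ℝ) ≤ ((9 ^ 4 : ℕ) : ℝ) := Nat.cast_nonneg _
    have e : ((C + C' + 9 ^ 4 : ℕ) : ℝ) = C + C' + ((9 ^ 4 : ℕ) : ℝ) := by push_cast; ring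
    rw [e] at hΛ hd
    have n0 : (1 : ℝ) ≤ ((Fintype.card ι : ℝ) + 1) ^ 4 :=
      one_le_pow₀ (by linarith [Nat.cast_nonneg (α := ℝ) (Fintype.card ι)])
    have w1 := mul_nonneg c0 hW
    have w2 := mul_nonneg c1 hW
    have w3 := mul_nonneg p0 hW
    have L1 : 1 ≤ Λ := le_trans (one_le_mul_of_one_le_of_one_le n0 (Real.one_le_exp (by positivity))) hΛ
    refine ⟨hC ι Γ M T W Λ d hr hO hR hT hW (le_trans (mul_le_mul_of_nonneg_left
      (Real.exp_le_exp.2 (by nlinarith)) (by positivity)) hΛ) (hd.trans (Real.exp_le_exp.2 (by nlinarith)))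
      ((hS ι Γ M _ Λ d hO L1 hH).2.2.2.1 0 Λ d (Nat.zero_le _) (by linarith) le_rfl le_rfl), ?_⟩
    intro i m hm
    have o1 := h1 ι Γ (Fin m) M T i hO hR
    refine hk _ _ (cp1 M T i (Fin m)) (T.cpy i (Fin m)) W Λ d ?_ o1 (h2 ι Γ (Fin m) M T i hO hR)
      ((hP Γ ι T hT).1 i (Fin m)).1 hW (le_trans ?_ hΛ) (hd.trans (Real.exp_le_exp.2 (by nlinarith))) ?_
    · rw [Fintype.card_sum, Fintype.card_fin]; omega
    · have a1 : ((Fintype.card (T.CV i (Fin m)) : ℝ) + 1) ^ 4 ≤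
          ((Fintype.card ι : ℝ) + 1) ^ 4 * ((9 ^ 4 : ℕ) : ℝ) := by
        refine (pow_le_pow_left₀ (by positivity) (card_cv T i m hm) 4).trans_eq ?_
        push_cast; ring
      refine (mul_le_mul_of_nonneg_right a1 (Real.exp_pos _).le).trans ?_
      rw [mul_assoc]
      refine mul_le_mul_of_nonneg_left ?_ (by positivity)
      refine (mul_le_mul_of_nonneg_right (le_exp _) (Real.exp_pos _).le).trans ?_
      rw [← Real.exp_add]
      exact Real.exp_le_exp.2 (by nlinarith)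
    · refine (hM ι Γ _ _ (Option (Fin m)) (cp1 M T i (Fin m)) M _ _ (9 * k + 8) 1 Λ d o1 hO one_pos
        (h3 ι Γ (Fin m) M T i hO hR) hH).2 k Λ ?_ (by linarith) (by linarith)
      rw [Fintype.card_option, Fintype.card_fin]
      nlinarith

end

end Vale.Agent.P057T.Br
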