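import Vale.Agent.P057T.Br.Defs
import Vale.Agent.P057T.Gk.Trf

/-! Minimal typicality from regularity. -/

set_option linter.all false

open MvPolynomial Finset
open scoped Real

namespace Vale.Agent.P057T.Br

open Vale.Agent.P057T.Mt Vale.Agent.P057T.Gk Vale.Agent.P057T.Cp

noncomputable section

theorem gz (hB : BOX) (hBM : BOXM) (h0 : MW0) (h1 : MW1) (hW : WM) : GZ := by
  intro ι Γ _ _ _ _ M T σ Λ d hM hR hT s0 s1 hΛ hd hH
  have n0 : (0 : ℝ) ≤ Fintype.card ι := Nat.cast_nonneg _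
  have L1 : 1 ≤ Λ := le_trans (one_le_pow₀ ((one_le_div s0).2 (by linarith))) hΛ
  have q1 : (1 : ℝ) ≤ 2 ^ Fintype.card Γ := one_le_pow₀ (by norm_num)
  have q4 : (4 : ℝ) ^ Fintype.card Γ = 2 ^ Fintype.card Γ * 2 ^ Fintype.card Γ := by
    rw [← mul_pow]; norm_num
  rw [q4] at hd
  constructor
  · intro S
    obtain ⟨o, hs⟩ := h0 ι Γ M T S hM hR
    obtain ⟨d0, w1, -⟩ := hW ι Γ M S Λ d hM hR.U o L1 hH
    refine hB ι Γ T ∅ S 0 σ Λ (2 ^ Fintype.card Γ * d) hT (empty_subset _) s0 s1 hΛ ?_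
      (fun v hv => absurd (subset_empty.1 hv) (hT.ne v).ne_empty) fun s l l1 l2 => ?_
    · have := mul_nonneg (zero_le_one.trans q1) d0
      nlinarith
    · obtain ⟨a1, a2⟩ := hs s l (by linarith)
      refine ⟨a1, ?_⟩
      rw [a2]
      exact w1 s l (by linarith) l2
  · intro S a ha
    obtain ⟨o, -⟩ := h0 ι Γ M T S hM hR
    obtain ⟨-, hs⟩ := h0 ι Γ M T (S.erase a) hM hR
    obtain ⟨d0, -, w2⟩ := hW ι Γ M S Λ d hM hR.U o L1 hH
    have t0 : 0 < σ / (10 * 2 ^ Fintype.card Γ) := by positivity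
    have hm := hBM ι Γ T (S.erase a) (fun y => ∀ s' l, 0 < l → l ≤ Λ →
      |(wn ((mg M S).fib {a} y) s' l).nm - 1| ≤ 2 ^ Fintype.card Γ * (σ / (10 * 2 ^ Fintype.card Γ)))
      σ Λ (σ / 10) hT s0 s1 hΛ le_rfl fun s => by
        obtain ⟨a1, a2⟩ := hs s Λ (by linarith)
        refine ⟨a1, ?_⟩
        rw [a2]
        refine (w2 a _ s ha t0).trans ?_
        rw [div_le_iff₀ t0, div_mul_div_comm, le_div_iff₀ (by positivity)]
        have := mul_nonneg (zero_le_one.trans q1) d0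
        nlinarith
    intro c r hc
    refine le_trans ?_ (hm c r hc)
    exact_mod_cast card_le_card fun z hz => by
      simp only [mem_filter] at hz ⊢
      refine ⟨hz.1, fun k => hz.2 ?_⟩
      have hp := (Trf.mem_fbx.1 hz.1).1
      refine hB ι Γ T (S.erase a) S z σ Λ (σ / 10) hT (erase_subset _ _) s0 s1 hΛ le_rfl ?_
        fun s l l1 l2 => ?_
      · unfold TT.pts at hp
        rw [dif_pos (hT.fin _ _), Set.Finite.mem_toFinset] at hp
        exact hp.2
      · obtain ⟨a1, a2⟩ := h1 ι Γ M T S a z s l hM hR ha (by linarith)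
        refine ⟨a1, ?_⟩
        rw [a2]
        refine (k s l (by linarith) l2).trans_eq ?_
        field_simp

end

end Vale.Agent.P057T.Br
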